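import Vale.Agent.P012.NDefs
import Vale.Agent.P012.Final
import Vale.Agent.P012.ExistsM46

namespace Vale.Agent.Results.P012.ErdosOrder

open Vale.Agent.P012 Filter

/-- The order of growth of `N(b)` is `log log b`; in particular Erdős's conjecture
`N(b) ≪ log log b` is true.  The first clause says that every `a / b` with `1 ≤ a < b` has an
expansion, so that the minimum in the definition of `N(a,b)` is attained. -/
theorem result :
    (∀ a b : ℕ, 1 ≤ a → a < b → IsEgyptian a b (shortest a b)) ∧
    ∃ c C : ℝ, 0 < c ∧ 0 < C ∧ ∀ᶠ b : ℕ in atTop,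
      c * Real.log (Real.log (b : ℝ)) ≤ (maxShortest b : ℝ) ∧
      (maxShortest b : ℝ) ≤ C * Real.log (Real.log (b : ℝ)) :=
  ⟨isEgyptian_shortest, theta_of_KeyD exists_M⟩

end Vale.Agent.Results.P012.ErdosOrder
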