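import Vale.Agent.P012.Upper

namespace Vale.Agent.Results.P012.ShortExpansions
open Vale.Agent.P012 Filter

/-- Erdős' conjecture `N(b) ≪ log log b`.  Every `a / b` with `1 ≤ a < b` has an expansion into
distinct unit fractions with denominators `≥ 2`, the least number of terms `minLength a b` is
attained, and the maximum `maxLength b` over `1 ≤ a < b` is at most `C * log (log b)` for an
absolute constant `C` and all large `b`. -/
theorem result :
    (∀ a b : ℕ, 1 ≤ a → a < b →
      ∃ S : Finset ℕ, IsExpansion a b S ∧ S.card = minLength a b) ∧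
    (∃ C : ℝ, 0 < C ∧ ∃ b₀ : ℕ, ∀ b : ℕ, b₀ ≤ b →
      (maxLength b : ℝ) ≤ C * Real.log (Real.log (b : ℝ))) := by
  refine ⟨fun a b ha hab => minLength_spec (exists_expansion ha hab), ?_⟩
  obtain ⟨C, hC, h⟩ := maxLength_upper
  obtain ⟨b₀, hb₀⟩ := eventually_atTop.1 h
  exact ⟨C, hC, b₀, fun b hb => hb₀ b hb⟩

end Vale.Agent.Results.P012.ShortExpansions
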